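import Mathlib.Topology.Homotopy.Equiv
import Vale.Agent.P216.AS.Htpy

/-!
# Homotopy invariance of the untwisted Alexander-Spanier cohomology (P216, rows BASE, EULER)
-/

open Set Topology
open Module (finrank)

namespace Vale.Agent.P216

namespace Low

variable {k : Type} [Field k] {E E' E'' : Type} [PseudoMetricSpace E] [PseudoMetricSpace E']
  [PseudoMetricSpace E'']

/-- Untwisted cohomology of a set. -/
abbrev Hu (k : Type) [Field k] {E : Type} [PseudoMetricSpace E] (X : Set E) (n : ℕ) : Type :=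
  AS.Ha (fun _ : Unit => (id : E → E)) (fun _ : Unit => (1 : k)) X n

/-- Uniformly continuous maps. -/
abbrev UMap (X : Set E) (Y : Set E') (f : E → E') : Prop :=
  AS.IsMap (fun _ : Unit => (id : E → E)) (fun _ : Unit => (id : E' → E')) X Y f

/-- Uniformly continuous homotopies. -/
abbrev UHtpy (X : Set E) (Y : Set E') (D : ℝ → E → E') : Prop :=
  AS.IsHtpy (fun _ : Unit => (id : E → E)) (fun _ : Unit => (id : E' → E')) X Y D

omit [PseudoMetricSpace E] in
theorem eqv_id {X : Set E} {n : ℕ} (f : (Fin n → E) → k) :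
    AS.Eqv (fun _ : Unit => (id : E → E)) (fun _ : Unit => (1 : k)) X f := fun _ x _ => by
  rw [one_mul]; rfl

theorem uMap_of_continuousOn {X : Set E} {Y : Set E'} {f : E → E'} (hX : IsCompact X)
    (hf : ContinuousOn f X) (hm : MapsTo f X Y) : UMap X Y f :=
  AS.IsMap.of_continuousOn hX hf hm fun _ _ _ => rfl

theorem uHtpy_of_continuousOn {X : Set E} {Y : Set E'} {D : ℝ → E → E'} (hX : IsCompact X)
    (hc : ContinuousOn (fun q : ℝ × E => D q.1 q.2) (Icc (0 : ℝ) 1 ×ˢ X))
    (hm : ∀ s ∈ Icc (0 : ℝ) 1, MapsTo (D s) X Y) : UHtpy X Y D :=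
  AS.IsHtpy.of_continuousOn hX hc hm fun _ _ _ _ _ => rfl

/-- Homotopy equivalent compact sets have isomorphic cohomology. -/
theorem bijective_of_htpy {X : Set E} {Y : Set E'} {f : E → E'} {g : E' → E} (hf : UMap X Y f)
    (hg : UMap Y X g) {D : ℝ → E → E} (hD : UHtpy X X D) (hD0 : ∀ x ∈ X, D 0 x = x)
    (hD1 : ∀ x ∈ X, D 1 x = g (f x)) {D' : ℝ → E' → E'} (hD' : UHtpy Y Y D')
    (hD'0 : ∀ x ∈ Y, D' 0 x = x) (hD'1 : ∀ x ∈ Y, D' 1 x = f (g x)) (n : ℕ) :
    Function.Bijective (AS.pull (fun _ : Unit => (1 : k)) hf n : Hu k Y n →ₗ[k] Hu k X n) := by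
  have key1 : ∀ x : Hu k X n, AS.pull (fun _ : Unit => (1 : k)) hf n
      (AS.pull (fun _ : Unit => (1 : k)) hg n x) = x := by
    intro x
    rw [← AS.pull_comp, AS.pull_congr (hg.comp hf) hD.one fun x hx => (hD1 x hx).symm,
      AS.pull_homotopy hD, AS.pull_eq_res le_rfl hD.zero hD0]
    exact AS.res_refl _ _
  have key2 : ∀ y : Hu k Y n, AS.pull (fun _ : Unit => (1 : k)) hg n
      (AS.pull (fun _ : Unit => (1 : k)) hf n y) = y := by
    intro x
    rw [← AS.pull_comp, AS.pull_congr (hf.comp hg) hD'.one fun x hx => (hD'1 x hx).symm,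
      AS.pull_homotopy hD', AS.pull_eq_res le_rfl hD'.zero hD'0]
    exact AS.res_refl _ _
  exact ⟨Function.LeftInverse.injective key2, Function.RightInverse.surjective key1⟩

/-- The homotopy of a `ContinuousMap.Homotopy`, with a real parameter. -/
noncomputable def hfun {X Y : Type} [TopologicalSpace X] [TopologicalSpace Y] {f g : C(X, Y)}
    (F : f.Homotopy g) (s : ℝ) (x : X) : Y := F (projIcc 0 1 zero_le_one s, x)

theorem continuous_hfun {X Y : Type} [TopologicalSpace X] [TopologicalSpace Y] {f g : C(X, Y)}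
    (F : f.Homotopy g) : Continuous fun q : ℝ × X => hfun F q.1 q.2 :=
  F.continuous.comp ((continuous_projIcc.comp continuous_fst).prodMk continuous_snd)

theorem hfun_zero {X Y : Type} [TopologicalSpace X] [TopologicalSpace Y] {f g : C(X, Y)}
    (F : f.Homotopy g) (x : X) : hfun F 0 x = f x := by
  rw [hfun, projIcc_left]
  exact F.apply_zero x

theorem hfun_one {X Y : Type} [TopologicalSpace X] [TopologicalSpace Y] {f g : C(X, Y)}
    (F : f.Homotopy g) (x : X) : hfun F 1 x = g x := by
  rw [hfun, projIcc_right]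
  exact F.apply_one x

/-- Homotopy equivalent compact spaces have cohomology of the same dimension. -/
theorem finrank_eq_of_homotopyEquiv [CompactSpace E] [CompactSpace E']
    (e : ContinuousMap.HomotopyEquiv E E') (n : ℕ) :
    finrank k (Hu k (univ : Set E) n) = finrank k (Hu k (univ : Set E') n) := by
  obtain ⟨F⟩ := e.left_inv
  obtain ⟨G⟩ := e.right_inv
  have hf : UMap (univ : Set E) (univ : Set E') e.toFun :=
    uMap_of_continuousOn isCompact_univ e.toFun.continuous.continuousOn (mapsTo_univ _ _)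
  have hg : UMap (univ : Set E') (univ : Set E) e.invFun :=
    uMap_of_continuousOn isCompact_univ e.invFun.continuous.continuousOn (mapsTo_univ _ _)
  have h := bijective_of_htpy (k := k) hf hg (D := hfun F.symm) (D' := hfun G.symm)
    (uHtpy_of_continuousOn isCompact_univ (continuous_hfun _).continuousOn
      fun _ _ => mapsTo_univ _ _)
    (fun x _ => hfun_zero _ x) (fun x _ => hfun_one _ x)
    (uHtpy_of_continuousOn isCompact_univ (continuous_hfun _).continuousOn
      fun _ _ => mapsTo_univ _ _)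
    (fun x _ => hfun_zero _ x) (fun x _ => hfun_one _ x) n
  exact (LinearEquiv.ofBijective _ h).finrank_eq.symm

/-- The cohomology of a subset is that of the subtype. -/
theorem isMor_val (X : Set E) : AS.IsMor
    (AS.Cc (fun _ : Unit => (id : E → E)) (fun _ : Unit => (1 : k)) X)
    (AS.Zr (fun _ : Unit => (id : E → E)) (fun _ : Unit => (1 : k)) X X)
    (AS.Cc (fun _ : Unit => (id : X → X)) (fun _ : Unit => (1 : k)) univ)
    (AS.Zr (fun _ : Unit => (id : X → X)) (fun _ : Unit => (1 : k)) univ univ)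
    (AS.pbK k (Subtype.val : X → E)) :=
  AS.IsMor.of_comm (fun _ => eqv_id _)
    (fun {n f} hf => by
      obtain ⟨-, ε, hε, h⟩ := hf
      exact ⟨eqv_id _, ε, hε, fun x hx => h _ ⟨fun i => (x i).2, fun i j => hx.2 i j⟩⟩)
    (AS.pbK_d _)

open Classical in
/-- Extension by zero. -/
noncomputable def extZ {X : Set E} {n : ℕ} (c : (Fin n → X) → k) (x : Fin n → E) : k :=
  if h : ∀ i, x i ∈ X then c fun i => ⟨x i, h i⟩ else 0

omit [PseudoMetricSpace E] in
theorem extZ_val {X : Set E} {n : ℕ} (c : (Fin n → X) → k) (x : Fin n → X) :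
    extZ c (Subtype.val ∘ x) = c x :=
  dif_pos (show ∀ i, (Subtype.val ∘ x) i ∈ X from fun i => (x i).2)

theorem val_bijective (X : Set E) (n : ℕ) :
    Function.Bijective (AS.Hmap (isMor_val (k := k) X) n) := by
  refine AS.Hmap_bijective _ (fun {n f} hf hf' => ⟨hf, ?_⟩)
    fun {n c} _ => ⟨extZ c, eqv_id _, ?_⟩
  · obtain ⟨-, ε, hε, h⟩ := hf'
    exact ⟨ε, hε, fun x hx => h (fun i => ⟨x i, hx.1 i⟩) ⟨fun _ => mem_univ _, hx.2⟩⟩
  · have h1 : c - AS.pbK k (Subtype.val : X → E) n (extZ c) = 0 := by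
      funext x
      change c x - extZ c (Subtype.val ∘ x) = 0
      rw [extZ_val, sub_self]
    rw [h1]
    exact Submodule.zero_mem _

theorem finrank_subtype (X : Set E) (n : ℕ) :
    finrank k (Hu k (univ : Set X) n) = finrank k (Hu k X n) :=
  (LinearEquiv.ofBijective _ (val_bijective (k := k) X n)).finrank_eq.symm

end Low

end Vale.Agent.P216
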