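import Vale.Agent.P216.Low.Retr
import Vale.Agent.P216.Low.Heq

/-!
# The cohomology at level zero (P216, row BASE)

`H(Xt H 0)⁻` is the (untwisted) cohomology of `M`.
-/

open Set Topology
open Module (finrank)
open Vale.Agent.P216.Low
open Vale.Agent.P216.H288 Vale.Agent.P216.H494 Vale.Agent.P216.L250

namespace Vale.Agent.P216

variable {M : Type} [MetricSpace M] {k : Type} [Field k]

/-- The section over the constant loops. -/
noncomputable def sec (x : M) : LM M × ℂ := (cst x, 1)

theorem dist_sec_le (x y : M) : dist (sec x) (sec y) ≤ dist x y := by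
  rw [Prod.dist_eq]
  exact max_le (dist_cst_le x y) (by simp [sec, dist_nonneg])

theorem dist_le_of_cst (x y : M) : dist x y ≤ dist (cst x) (cst y) := by
  simpa using dist_fn_le (cst x) (cst y) 0

theorem isMor_sec (H : Hol M) : AS.IsMor
    (AS.Cc (fun _ : Unit => deckC) (fun _ : Unit => (-1 : k)) (Xt H 0))
    (AS.Zr (fun _ : Unit => deckC) (fun _ : Unit => (-1 : k)) (Xt H 0) (Xt H 0))
    (AS.Cc (fun _ : Unit => (id : M → M)) (fun _ : Unit => (1 : k)) univ)
    (AS.Zr (fun _ : Unit => (id : M → M)) (fun _ : Unit => (1 : k)) univ univ)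
    (AS.pbK k (sec (M := M))) :=
  AS.IsMor.of_comm (fun _ => eqv_id _)
    (fun {n f} hf => by
      obtain ⟨-, ε, hε, h⟩ := hf
      refine ⟨eqv_id _, ε, hε, fun x hx => h _ ⟨fun i => ?_, fun i j => ?_⟩⟩
      · exact mem_Xt_zero.2 ⟨x i, Or.inl rfl⟩
      · exact (dist_sec_le _ _).trans_lt (hx.2 i j))
    (AS.pbK_d _)

open Classical in
/-- Antisymmetric extension of a cochain. -/
noncomputable def extA {n : ℕ} (c : (Fin (n + 1) → M) → k) (q : Fin (n + 1) → LM M × ℂ) : k :=
  if ∀ i, 0 < (q i).2.re then c fun i => fn (q i).1 0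
  else if ∀ i, (q i).2.re < 0 then -c fun i => fn (q i).1 0 else 0

theorem extA_eqv {n : ℕ} (c : (Fin (n + 1) → M) → k) (X : Set (LM M × ℂ)) :
    AS.Eqv (fun _ : Unit => deckC) (fun _ : Unit => (-1 : k)) X (extA c) := by
  intro _ q _
  have e1 : (∀ i, 0 < ((deckC ∘ q) i).2.re) ↔ ∀ i, (q i).2.re < 0 := by
    simp only [Function.comp, deckC_snd, Complex.neg_re, Left.neg_pos_iff]
  have e2 : (∀ i, ((deckC ∘ q) i).2.re < 0) ↔ ∀ i, 0 < (q i).2.re := by
    simp only [Function.comp, deckC_snd, Complex.neg_re, Left.neg_neg_iff]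
  have e3 : (fun i => fn ((deckC ∘ q) i).1 0) = fun i => fn (q i).1 0 := rfl
  unfold extA
  rw [e3]
  by_cases h1 : ∀ i, 0 < (q i).2.re
  · have h2 : ¬ ∀ i, (q i).2.re < 0 := fun h => by
      have := h 0
      have := h1 0
      linarith
    rw [if_neg (fun h => h2 (e1.1 h)), if_pos (e2.2 h1), if_pos h1]
    ring
  · by_cases h2 : ∀ i, (q i).2.re < 0
    · rw [if_pos (e1.2 h2), if_neg h1, if_pos h2]
      ring
    · rw [if_neg (fun h => h2 (e1.1 h)), if_neg (fun h => h1 (e2.1 h)), if_neg h1, if_neg h2]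
      ring

theorem extA_sec {n : ℕ} (c : (Fin (n + 1) → M) → k) (x : Fin (n + 1) → M) :
    extA c (sec ∘ x) = c x := by
  unfold extA
  rw [if_pos fun i => by simp [sec]]
  rfl

theorem sec_bijective (H : Hol M) (n : ℕ) : Function.Bijective (AS.Hmap (isMor_sec (k := k) H) n) := by
  refine AS.Hmap_bijective _ (fun {n f} hf hf' => ⟨hf, ?_⟩) fun {n c} _ => ⟨extA c, extA_eqv c _, ?_⟩
  · obtain ⟨-, ε, hε, h⟩ := hf'
    refine ⟨min ε 2, lt_min hε two_pos, fun q hq => ?_⟩
    have hsm : ∀ x : Fin (n + 1) → M, (∀ i, (q i).1 = cst (x i)) → f (sec ∘ x) = 0 := by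
      intro x hx
      refine h x ⟨fun _ => mem_univ _, fun i j => ?_⟩
      refine (dist_le_of_cst _ _).trans_lt ?_
      rw [← hx i, ← hx j]
      exact ((le_max_left _ _).trans (Prod.dist_eq (x := q i) (y := q j)).ge).trans_lt
        ((hq.2 i j).trans_le (min_le_left _ _))
    choose x hx using fun i => mem_Xt_zero.1 (hq.1 i)
    have hx1 : ∀ i, (q i).1 = cst (x i) := fun i => by
      rcases hx i with h | h <;> rw [h]
    have hsgn : ∀ i j, (q i).2 = 1 → (q j).2 = -1 → False := by
      intro i j hi hj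
      have h1 : dist (q i).2 (q j).2 < 2 := ((le_max_right _ _).trans
        (Prod.dist_eq (x := q i) (y := q j)).ge).trans_lt ((hq.2 i j).trans_le (min_le_right _ _))
      rw [hi, hj, dist_eq_norm] at h1
      norm_num at h1
    rcases hx 0 with h0 | h0
    · have h1 : q = sec ∘ x := by
        funext i
        rcases hx i with h2 | h2
        · exact h2
        · exact (hsgn 0 i (by rw [h0]) (by rw [h2])).elim
      rw [h1]
      exact hsm x hx1
    · have h1 : q = deckC ∘ (sec ∘ x) := by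
        funext i
        rcases hx i with h2 | h2
        · exact (hsgn i 0 (by rw [h2]) (by rw [h0])).elim
        · rw [h2]; rfl
      rw [h1, hf () (sec ∘ x) fun i => mem_Xt_zero.2 ⟨x i, Or.inl rfl⟩, hsm x hx1, mul_zero]
  · have h1 : c - AS.pbK k (sec (M := M)) n (extA c) = 0 := by
      funext x
      change c x - extA c (sec ∘ x) = 0
      rw [extA_sec, sub_self]
    rw [h1]
    exact Submodule.zero_mem _

/-- The twisted cohomology at level zero has the dimension of the cohomology of `M`. -/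
theorem finrank_zero [CompactSpace M] (H : Hol M) (G : GeoList M) (hD : DescentStmt H G) (n : ℕ) :
    finrank k ((mkGSys H G hD).V k 0 n) = finrank k (Hu k (univ : Set M) n) := by
  have h1 : (mkGSys H G hD).X 0 = Xt H 0 := XX_eq le_rfl
  have h2 := (LinearEquiv.ofBijective _ (sec_bijective (k := k) H n)).finrank_eq
  rw [← h2]
  unfold GSys.V
  rw [h1]
  rfl

/-- **D7** from the Euler characteristic of `M`. -/
theorem base_of_euler [CompactSpace M] (H : Hol M) (G : GeoList M) (hD : DescentStmt H G)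
    (hχ : ∀ p : ℕ, ∀ _ : Fact p.Prime, 2 < p → ∃ m, ∀ m' ≥ m, ∑ n ∈ Finset.range m',
      (-1 : ℤ) ^ n * (finrank (ZMod p) (Hu (ZMod p) (univ : Set M) n) : ℤ) ≠ 0) :
    (mkGSys H G hD).Base := by
  obtain ⟨s₁, hr⟩ := exists_retr H G hD
  refine GSys.base_of _ hr (fun q hq => ?_) fun p hp hp2 => ?_
  · change q ∈ XX H 0 at hq
    rw [XX_eq le_rfl] at hq
    exact revC_of_mem_zero hq
  · obtain ⟨m, hm⟩ := hχ p hp hp2
    refine ⟨m, fun m' hm' => ?_⟩
    simp only [finrank_zero H G hD]
    exact hm m' hm'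

end Vale.Agent.P216
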