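import Vale.Agent.P216.Low.Zero
import Vale.Agent.P216.A215.Stmt

/-!
# D7 for closed manifolds homotopy equivalent to a complex projective space (P216, row BASE)
-/

open Set Topology
open Module (finrank)
open Vale.Agent.P216.Low
open Vale.Agent.P216.H288 Vale.Agent.P216.H494 Vale.Agent.P216.L250

namespace Vale.Agent.P216

namespace Low

variable {k : Type} [Field k] {E : Type} [PseudoMetricSpace E]

theorem zs_eq (X : Set E) (n : ℕ) : P265.AS.Zs id (1 : k) X ∅ n =
    AS.Zc (AS.Cc (fun _ : Unit => (id : E → E)) (fun _ : Unit => (1 : k)) X)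
      (AS.Zr (fun _ : Unit => (id : E → E)) (fun _ : Unit => (1 : k)) X X) n := by
  ext c
  constructor
  · rintro ⟨-, ε, hε, h, -⟩
    exact AS.mem_Zc_abs.2 ⟨eqv_id _, ε, hε, h⟩
  · intro h
    obtain ⟨-, ε, hε, h⟩ := AS.mem_Zc_abs.1 h
    exact ⟨fun x hx => eqv_id (X := X) c () x hx, ε, hε, h, fun x hx => (hx.1 0).elim⟩

/-- The rank in terms of the landed library of P265. -/
theorem rank_Hu (X : Set E) (n : ℕ) :
    Module.rank k (Hu k X n) = P265.AS.hh id (1 : k) X ∅ n := by
  change P265.AS.qr _ _ = P265.AS.qr _ _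
  rw [zs_eq]
  refine le_antisymm (P265.AS.qr_le_of_inj LinearMap.id (fun c hc => hc) fun c hc h => ?_)
    (P265.AS.qr_le_of_inj LinearMap.id (fun c hc => hc) fun c hc h => ?_)
  · obtain ⟨b, hb, ε, hε, h1, h2⟩ := h
    cases n with
    | zero =>
      rw [AS.mem_Bc_zero]
      refine ⟨eqv_id _, ε, hε, fun x hx => ?_⟩
      have hb0 : b = 0 := by
        funext y
        exact h2 y ⟨fun i => i.elim0, fun i => i.elim0⟩
      rw [show c x = P265.AS.d b x from h1 x hx, hb0, P265.AS.d_zero]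
      rfl
    | succ n =>
      rw [AS.mem_Bc_succ]
      refine ⟨b, eqv_id _, eqv_id _, ε, hε, fun x hx => ?_⟩
      change c x - P265.AS.d b x = 0
      rw [sub_eq_zero]
      exact h1 x hx
  · cases n with
    | zero =>
      rw [LinearMap.id_apply, AS.mem_Bc_zero] at h
      obtain ⟨-, ε, hε, h⟩ := h
      exact ⟨0, fun x _ => by simp, ε, hε, fun x hx => by rw [h x hx, P265.AS.d_zero]; rfl,
        fun _ _ => rfl⟩
    | succ n =>
      rw [LinearMap.id_apply, AS.mem_Bc_succ] at h
      obtain ⟨b, -, -, ε, hε, h⟩ := h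
      refine ⟨b, fun x hx => eqv_id (X := X) b () x hx, ε, hε, fun x hx => ?_,
        fun x hx => (hx.1 0).elim⟩
      exact sub_eq_zero.1 (h x hx)

theorem finite_Hu_CP (N n : ℕ) : Module.Finite k (Hu k (H391.CP N) n) := by
  rw [← Module.rank_lt_aleph0_iff, rank_Hu]
  refine (H391.hh_CP_le (1 : k) N n).trans_lt ?_
  split_ifs
  · exact Cardinal.one_lt_aleph0
  · exact Cardinal.aleph0_pos

theorem finrank_CP_odd (N : ℕ) {n : ℕ} (hn : Odd n) : finrank k (Hu k (H391.CP N) n) = 0 := by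
  rw [finrank, rank_Hu, H391.hh_CP_odd _ _ hn, Cardinal.zero_toNat]

theorem finrank_CP_zero (N : ℕ) : 0 < finrank k (Hu k (H391.CP (N + 1)) 0) := by
  have := finite_Hu_CP (k := k) (N + 1) 0
  have h : 1 ≤ Module.rank k (Hu k (H391.CP (N + 1)) 0) := by
    rw [rank_Hu]
    exact H391.one_le_hh_zero (H391.CP_nonempty N)
  rw [← Module.finrank_eq_rank] at h
  exact_mod_cast h

theorem euler_CP (N : ℕ) {m : ℕ} (hm : 1 ≤ m) :
    0 < ∑ n ∈ Finset.range m, (-1 : ℤ) ^ n * (finrank k (Hu k (H391.CP (N + 1)) n) : ℤ) := by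
  have h1 : ∀ n ∈ Finset.range m,
      0 ≤ (-1 : ℤ) ^ n * (finrank k (Hu k (H391.CP (N + 1)) n) : ℤ) := by
    intro n _
    rcases Nat.even_or_odd n with h | h
    · rw [h.neg_one_pow, one_mul]
      exact Int.natCast_nonneg _
    · rw [finrank_CP_odd _ h]
      simp
  refine lt_of_lt_of_le ?_ (Finset.single_le_sum h1 (Finset.mem_range.2 hm))
  rw [pow_zero, one_mul]
  exact_mod_cast finrank_CP_zero N

end Low

variable {M : Type} [MetricSpace M]

/-- **D7** for closed manifolds homotopy equivalent to `ℂP^n`. -/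
theorem base_CPn [CompactSpace M] {n : ℕ} (e : ContinuousMap.HomotopyEquiv M (CPn n)) (H : Hol M)
    (G : GeoList M) (hD : DescentStmt H G) : (mkGSys H G hD).Base := by
  have : CompactSpace (CPn n) := isCompact_iff_compactSpace.1 (H391.isCompact_CP (n + 1))
  refine base_of_euler H G hD fun p hp _ => ⟨1, fun m hm => ?_⟩
  simp only [finrank_eq_of_homotopyEquiv e, finrank_subtype]
  exact (euler_CP n hm).ne'

end Vale.Agent.P216
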