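import Vale.Agent.P216.Bor.Reg

/-!
# The low level sublevel set (P216, row BASE): abstract form

If `X s`, `s` small, retracts onto `X 0` by a map which is close to the identity then
`H(X s)⁻ = H(X 0)⁻`; hence D7.
-/

open Set Topology
open Module (finrank)

namespace Vale.Agent.P216

namespace GSys

variable {Λ : Type} [PseudoMetricSpace Λ] (S : GSys Λ) {k : Type} [Field k]

theorem exists_lt_ℓ {s₁ : ℝ} (h : 0 < s₁) : ∃ s₀ : ℝ, 0 < s₀ ∧ s₀ ≤ s₁ ∧ ∀ i, s₀ < S.ℓ i := by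
  have := S.fin
  have h1 : ∀ᶠ s in 𝓝 (0 : ℝ), ∀ i, s < S.ℓ i :=
    Filter.eventually_all.2 fun i => Iio_mem_nhds (S.ℓ_pos i)
  obtain ⟨ε, hε, h2⟩ := Metric.eventually_nhds_iff.1 h1
  have h3 : 0 < min (ε / 2) s₁ := lt_min (by linarith) h
  refine ⟨min (ε / 2) s₁, h3, min_le_right _ _, h2 ?_⟩
  rw [Real.dist_eq, sub_zero, abs_of_pos h3]
  exact (min_le_left _ _).trans_lt (by linarith)

theorem not_crit_of_lt {s₀ : ℝ} (h : ∀ i, s₀ < S.ℓ i) {a : ℝ} (ha : a ≤ s₀) :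
    a ∉ AS.Crit S.ℓ := by
  rintro ⟨i, m, hm, rfl⟩
  have h1 : (1 : ℝ) ≤ m := by exact_mod_cast hm
  have h2 := S.ℓ_pos i
  have h3 := h i
  nlinarith

/-- Data of a retraction of the low sublevel sets onto `X 0`. -/
structure Retr (s₁ : ℝ) (r : Λ → Λ) : Prop where
  pos : 0 < s₁
  cont : ContinuousOn r (S.X s₁)
  maps : MapsTo r (S.X s₁) (S.X 0)
  comm : ∀ x ∈ S.X s₁, r (S.τ x) = S.τ (r x)
  fix : ∀ x ∈ S.X 0, r x = x
  close : ∀ ε > 0, ∃ s > 0, ∀ x ∈ S.X s, dist x (r x) < ε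

namespace Retr

variable {S} {s₁ : ℝ} {r : Λ → Λ} (hr : S.Retr s₁ r)

include hr

theorem isMap {s : ℝ} (hs : s ≤ s₁) :
    AS.IsMap (fun _ : Unit => S.τ) (fun _ : Unit => S.τ) (S.X s) (S.X 0) r :=
  AS.IsMap.of_continuousOn (S.compact s) (hr.cont.mono (S.mono _ _ hs))
    (hr.maps.mono_left (S.mono _ _ hs)) fun _ x hx => hr.comm x (S.mono _ _ hs hx)

/-- The restriction to `X 0` is onto. -/
theorem res_surjective {s : ℝ} (hs0 : 0 ≤ s) (hs : s ≤ s₁) (n : ℕ) :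
    Function.Surjective (AS.res (S.mono _ _ hs0) n : S.V k s n →ₗ[k] S.V k 0 n) := by
  intro y
  refine ⟨AS.pull (fun _ : Unit => (-1 : k)) (hr.isMap hs) n y, ?_⟩
  have e : AS.pull (fun _ : Unit => (-1 : k)) (hr.isMap (s := 0) hr.pos.le) n y = y := by
    rw [AS.pull_eq_res le_rfl _ hr.fix]
    exact AS.res_refl _ _
  obtain ⟨c, hc, rfl⟩ := AS.H.exists_mk y
  exact e

/-- A class which dies on `X 0` dies on some `X s'`. -/
theorem exists_res_eq_zero {s : ℝ} (hs0 : 0 < s) (hs : s ≤ s₁) (n : ℕ) (x : S.V k s n)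
    (hx : AS.res (S.mono _ _ hs0.le) n x = (0 : S.V k 0 n)) :
    ∃ s', 0 < s' ∧ ∃ h : s' ≤ s, AS.res (S.mono _ _ h) n x = (0 : S.V k s' n) := by
  obtain ⟨c, hc, rfl⟩ := AS.H.exists_mk x
  obtain ⟨hcE, ε, hε, hcd⟩ := AS.mem_Zc_abs.1 hc
  -- small levels
  obtain ⟨s₂, hs₂, hcl⟩ := hr.close (ε / 3) (by positivity)
  set s' := min s₂ s with hs'
  have hs'0 : 0 < s' := lt_min hs₂ hs0
  have hs's : s' ≤ s := min_le_right _ _
  have hs's₂ : s' ≤ s₂ := min_le_left _ _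
  refine ⟨s', hs'0, hs's, ?_⟩
  have h0 : AS.IsMap (fun _ : Unit => S.τ) (fun _ : Unit => S.τ) (S.X s') (S.X s) id :=
    AS.IsMap.id_of_subset (S.mono _ _ hs's)
  have h1 : AS.IsMap (fun _ : Unit => S.τ) (fun _ : Unit => S.τ) (S.X s') (S.X s) r :=
    (hr.isMap (hs's.trans hs)).mono le_rfl
      ((hr.maps.mono_left (S.mono _ _ (hs's.trans hs))).mono_right (S.mono _ _ hs0.le))
  obtain ⟨δ, hδ, huc⟩ := h1.uc ε hε
  have hclose : AS.Close (S.X s') (id : Λ → Λ) r (min δ (ε / 3)) ε := by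
    intro x hx y hy hxy
    have e1 : dist y (r y) < ε / 3 := hcl y (S.mono _ _ hs's₂ hy)
    have e2 : dist x y < ε / 3 := hxy.trans_le (min_le_right _ _)
    refine ⟨e2.trans (by linarith), ?_, huc x hx y hy (hxy.trans_le (min_le_left _ _))⟩
    exact (dist_triangle x y (r y)).trans_lt (by linarith)
  have key := AS.contiguous (A := ∅) (A' := ∅) (k := k) (χ := fun _ : Unit => (-1 : k)) h0 h1
    (empty_subset _) (mapsTo_empty _ _) (mapsTo_empty _ _) hcE (lt_min hδ (by positivity)) hcd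
    (fun x hx => absurd (hx.1 0) (notMem_empty _)) hclose
  rw [AS.Zr_empty] at key
  -- the pullback by `r` is a coboundary
  have hx' : c ∈ AS.Bc (S.CS k 0) (S.CT k 0) n := AS.H.mk_eq_zero.1 hx
  have h2 : AS.pbK k r n c ∈ AS.Bc (S.CS k s') (S.CT k s') n := ((hr.isMap (hs's.trans hs)).isMor_Cc (χ := fun _ : Unit => (-1 : k)) le_rfl
    (hr.isMap (hs's.trans hs)).mapsX).mapB hx'
  have h3 := Submodule.sub_mem _ h2 key
  rw [sub_sub_cancel] at h3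
  exact AS.H.mk_eq_zero.2 h3

/-- **Continuity at level 0.** -/
theorem res_bijective {s : ℝ} (hs0 : 0 < s) (hs : s ≤ s₁) (hℓ : ∀ i, s < S.ℓ i) (n : ℕ) :
    Function.Bijective (AS.res (S.mono _ _ hs0.le) n : S.V k s n →ₗ[k] S.V k 0 n) := by
  refine ⟨?_, hr.res_surjective hs0.le hs n⟩
  rw [injective_iff_map_eq_zero]
  intro x hx
  obtain ⟨s', hs', h, hx'⟩ := hr.exists_res_eq_zero hs0 hs n x hx
  refine (S.res_bijective hs' h (fun a ha => S.not_crit_of_lt hℓ ha.2) (S.mono _ _ h) n).1 ?_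
  rw [hx', map_zero]

end Retr

/-- **D7**, abstract form. -/
theorem base_of {s₁ : ℝ} {r : Λ → Λ} (hr : S.Retr s₁ r) (hθ : ∀ x ∈ S.X 0, S.θ x = x)
    (hχ : ∀ p : ℕ, ∀ _ : Fact p.Prime, 2 < p → ∃ m, ∀ m' ≥ m, ∑ n ∈ Finset.range m',
      (-1 : ℤ) ^ n * (finrank (ZMod p) (S.V (ZMod p) 0 n) : ℤ) ≠ 0) : S.Base := by
  obtain ⟨s₀, h0, h1, h2⟩ := S.exists_lt_ℓ hr.pos
  refine ⟨s₀, h0, h2, fun p hp hp2 => ⟨fun n f hf => ?_, ?_⟩⟩
  · -- the reversal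
    have hθm : AS.IsMap (fun _ : Unit => S.τ) (fun _ : Unit => S.τ) (S.X s₀) (S.X s₀) S.θ :=
      AS.IsMap.of_continuousOn (S.compact s₀) (S.cont_θ s₀) (S.θ_mem s₀)
        fun _ x _ => (S.τ_θ x).symm
    have hθ0 : AS.IsMap (fun _ : Unit => S.τ) (fun _ : Unit => S.τ) (S.X 0) (S.X s₀) S.θ :=
      hθm.mono (S.mono _ _ h0.le) ((S.θ_mem 0).mono_right (S.mono _ _ h0.le))
    set x : S.V (ZMod p) s₀ n := AS.H.mk f hf with hx
    have e0 : AS.res (S.mono _ _ h0.le) n (AS.pull (fun _ : Unit => (-1 : ZMod p)) hθm n x) =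
        (AS.res (S.mono _ _ h0.le) n x : S.V (ZMod p) 0 n) := by
      have e2 := AS.pull_eq_res (χ := fun _ : Unit => (-1 : ZMod p)) (n := n)
        (S.mono _ _ h0.le) hθ0 hθ
      exact LinearMap.congr_fun e2 x
    have e1 := (hr.res_bijective (k := ZMod p) h0 h1 h2 n).1 e0
    have e3 : AS.H.mk (AS.pbK (ZMod p) S.θ n f) ((hθm.isMor_Cc le_rfl hθm.mapsX).mapZ hf) =
        (AS.H.mk f hf : S.V (ZMod p) s₀ n) := e1
    rw [AS.H.mk_eq_mk] at e3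
    exact e3
  · obtain ⟨m, hm⟩ := hχ p hp hp2
    refine ⟨m, fun m' hm' => ?_⟩
    have e : ∀ n, finrank (ZMod p) (S.V (ZMod p) s₀ n) = finrank (ZMod p) (S.V (ZMod p) 0 n) :=
      fun n => (LinearEquiv.ofBijective _
        (hr.res_bijective (k := ZMod p) h0 h1 h2 n)).finrank_eq
    simp only [e]
    exact hm m' hm'

end GSys

end Vale.Agent.P216
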