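import Vale.Agent.P216.Low.Base
import Vale.Agent.P216.Spine.Build

/-!
# The retraction of the low double cover sublevel sets onto the constant loops (P216, row BASE)

A loop goes to the constant loop at its base point, a square root of the holonomy to the nearest
square root of `1`.
-/

open Set Topology
open Module (finrank)
open Vale.Agent.P216.H288 Vale.Agent.P216.H494 Vale.Agent.P216.L250

namespace Vale.Agent.P216

variable {M : Type} [MetricSpace M]

/-- The nearest sign. -/
noncomputable def sg (z : ℂ) : ℂ := if 0 < z.re then 1 else -1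

theorem norm_sub_sg_le (z : ℂ) : ‖z - sg z‖ ≤ ‖z ^ 2 - 1‖ := by
  have h : z ^ 2 - 1 = (z - 1) * (z + 1) := by ring
  rw [h, norm_mul, sg]
  split_ifs with h0
  · have h1 : 1 ≤ ‖z + 1‖ := by
      have := Complex.re_le_norm (z + 1)
      rw [Complex.add_re, Complex.one_re] at this
      linarith
    exact le_mul_of_one_le_right (norm_nonneg _) h1
  · have h1 : 1 ≤ ‖z - 1‖ := by
      have := Complex.re_le_norm (1 - z)
      rw [Complex.sub_re, Complex.one_re, norm_sub_rev] at this
      linarith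
    rw [sub_neg_eq_add]
    exact le_mul_of_one_le_left (norm_nonneg _) h1

theorem sg_neg {z : ℂ} (h : z.re ≠ 0) : sg (-z) = -sg z := by
  unfold sg
  rw [Complex.neg_re]
  rcases lt_or_gt_of_ne h with h1 | h1
  · rw [if_pos (by linarith), if_neg (by linarith), neg_neg]
  · rw [if_neg (by linarith), if_pos h1]

theorem sg_sq (z : ℂ) : sg z ^ 2 = 1 := by
  unfold sg
  split_ifs <;> norm_num

theorem re_ne_zero_of_sg {z : ℂ} (h : ‖z - sg z‖ < 1) : z.re ≠ 0 := by
  intro h0
  have h1 := Complex.abs_re_le_norm (z - sg z)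
  rw [sg, if_neg (by linarith)] at h h1
  rw [Complex.sub_re, h0, Complex.neg_re, Complex.one_re] at h1
  norm_num at h1 h
  linarith

theorem continuousOn_sg : ContinuousOn sg {z | z.re ≠ 0} := by
  intro z hz
  apply ContinuousAt.continuousWithinAt
  rcases lt_or_gt_of_ne (show z.re ≠ 0 from hz) with h1 | h1
  · refine (continuousAt_const (y := (-1 : ℂ))).congr ?_
    filter_upwards [Complex.continuous_re.continuousAt.eventually_lt_const h1] with w hw
    rw [sg, if_neg (by linarith)]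
  · refine (continuousAt_const (y := (1 : ℂ))).congr ?_
    filter_upwards [Complex.continuous_re.continuousAt.eventually_const_lt h1] with w hw
    rw [sg, if_pos hw]

theorem dist_cst_le (x y : M) : dist (cst x) (cst y) ≤ dist x y :=
  (dist_le_iff dist_nonneg).2 fun t => by simp

theorem continuous_cst : Continuous (cst (M := M)) :=
  (LipschitzWith.of_dist_le_mul (K := 1) fun x y => by simpa using dist_cst_le x y).continuous

theorem continuous_eval_zero : Continuous fun g : LM M => fn g 0 :=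
  (LipschitzWith.of_dist_le_mul (K := 1) fun g g' => by simpa using dist_fn_le g g' 0).continuous

theorem dist_cst_fn_le {s : ℝ} (hs : 0 ≤ s) {g : LM M} (hg : g ∈ XE M s) :
    dist g (cst (fn g 0)) ≤ s := by
  refine dist_le_of_Ico hs fun t ht => ?_
  rw [fn_cst]
  refine (dist_fn_le_of_mem hg hs t 0).trans ?_
  have h1 : Real.sqrt |t - 0| ≤ 1 := by
    rw [sub_zero, abs_of_nonneg ht.1]
    exact Real.sqrt_le_one.2 ht.2.le
  exact mul_le_of_le_one_right hs h1

theorem exists_hol_near [CompactSpace M] (H : Hol M) {ε : ℝ} (hε : 0 < ε) :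
    ∃ s, 0 < s ∧ s ≤ 1 ∧ ∀ g ∈ XE M s, ‖H.hol g - 1‖ < ε := by
  have h1 := (isCompact_XE (M := M) zero_le_one).uniformContinuousOn_of_continuous
    (H.continuousOn_hol 1)
  rw [Metric.uniformContinuousOn_iff] at h1
  obtain ⟨δ, hδ, h⟩ := h1 ε hε
  have hs : 0 < min (δ / 2) 1 := lt_min (by linarith) one_pos
  refine ⟨min (δ / 2) 1, hs, min_le_right _ _, fun g hg => ?_⟩
  have h2 := h g (XE_mono hs.le (min_le_right _ _) hg) (cst (fn g 0)) (cst_mem _ _)
    ((dist_cst_fn_le hs.le hg).trans_lt ((min_le_left _ _).trans_lt (by linarith)))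
  rwa [H.hol_cst, dist_eq_norm] at h2

/-- The retraction. -/
noncomputable def retr (q : LM M × ℂ) : LM M × ℂ := (cst (fn q.1 0), sg q.2)

theorem retr_mem {H : Hol M} (q : LM M × ℂ) : retr q ∈ Xt H 0 :=
  ⟨cst_mem _ _, by rw [retr, H.hol_cst]; exact sg_sq _⟩

theorem retr_of_mem {H : Hol M} {q : LM M × ℂ} (h : q ∈ Xt H 0) : retr q = q := by
  obtain ⟨x, rfl | rfl⟩ := mem_Xt_zero.1 h
  · simp [retr, sg]
  · simp [retr, sg]

theorem retr_deckC {q : LM M × ℂ} (h : q.2.re ≠ 0) : retr (deckC q) = deckC (retr q) :=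
  Prod.ext rfl (sg_neg h)

theorem norm_snd_sub_sg {H : Hol M} {s : ℝ} {q : LM M × ℂ} (h : q ∈ Xt H s) :
    ‖q.2 - sg q.2‖ ≤ ‖H.hol q.1 - 1‖ := by
  rw [← h.2]
  exact norm_sub_sg_le _

theorem dist_retr_lt {H : Hol M} {s ε : ℝ} (hs : 0 ≤ s) (hsε : s < ε) {q : LM M × ℂ}
    (h : q ∈ Xt H s) (h1 : ‖H.hol q.1 - 1‖ < ε) : dist q (retr q) < ε := by
  rw [Prod.dist_eq]
  refine max_lt ((dist_cst_fn_le hs h.1).trans_lt hsε) ?_
  change dist q.2 (sg q.2) < ε
  rw [dist_eq_norm]
  exact (norm_snd_sub_sg h).trans_lt h1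

theorem exists_re_ne_zero [CompactSpace M] (H : Hol M) :
    ∃ s, 0 < s ∧ ∀ q ∈ Xt H s, q.2.re ≠ 0 := by
  obtain ⟨s, hs, -, h⟩ := exists_hol_near H one_pos
  exact ⟨s, hs, fun q hq => re_ne_zero_of_sg ((norm_snd_sub_sg hq).trans_lt (h q.1 hq.1))⟩

theorem exists_dist_retr_lt [CompactSpace M] (H : Hol M) {ε : ℝ} (hε : 0 < ε) :
    ∃ s, 0 < s ∧ ∀ q ∈ Xt H s, dist q (retr q) < ε := by
  obtain ⟨s, hs, -, h⟩ := exists_hol_near H hε
  have h1 : 0 < min s (ε / 2) := lt_min hs (by linarith)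
  refine ⟨min s (ε / 2), h1, fun q hq => ?_⟩
  exact dist_retr_lt h1.le ((min_le_right _ _).trans_lt (by linarith)) hq
    (h q.1 (XE_mono h1.le (min_le_left _ _) hq.1))

theorem continuousOn_retr : ContinuousOn (retr (M := M)) {q | q.2.re ≠ 0} :=
  (continuous_cst.comp (continuous_eval_zero.comp continuous_fst)).continuousOn.prodMk
    (continuousOn_sg.comp continuous_snd.continuousOn fun _ h => h)

/-- The retraction data of the system of a closed manifold. -/
theorem exists_retr [CompactSpace M] (H : Hol M) (G : GeoList M) (hD : DescentStmt H G) :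
    ∃ s₁, (mkGSys H G hD).Retr s₁ retr := by
  obtain ⟨s₁, hs₁, h⟩ := exists_re_ne_zero H
  have hX : ∀ q ∈ (mkGSys H G hD).X s₁, q.2.re ≠ 0 := fun q hq => h q (by
    rwa [← XX_eq (H := H) hs₁.le])
  refine ⟨s₁, hs₁, continuousOn_retr.mono hX, fun q _ => ?_, fun q hq => retr_deckC (hX q hq),
    fun q hq => ?_, fun ε hε => ?_⟩
  · change retr q ∈ XX H 0
    rw [XX_eq le_rfl]
    exact retr_mem q
  · change q ∈ XX H 0 at hq
    rw [XX_eq le_rfl] at hq
    exact retr_of_mem hq
  · obtain ⟨s, hs, h1⟩ := exists_dist_retr_lt H hε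
    exact ⟨s, hs, fun q hq => h1 q (by rwa [← XX_eq (H := H) hs.le])⟩

end Vale.Agent.P216
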